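import Mathlib

/-!
# P338: a lower bound `T_A(n) ≥ 4 n - 1` for integer multiplication on multitape machines
-/

namespace Vale.Agent.Results.P338.FourN

/-- head moves -/
inductive Move where
  | left : Move
  | stay : Move
  | right : Move

/-- displacement of a move -/
def Move.shift : Move → ℤ
  | .left => -1
  | .stay => 0
  | .right => 1

/-- A deterministic multitape Turing machine: `k+1` tapes, a finite alphabet containing a blank,
the digits `0`, `1` and the separator `#` (four distinct symbols), finitely many states, and a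
transition function; the machine halts when the transition is undefined (`none`).
`out` is the designated output tape; tape `0` is the first tape, which holds the input. -/
structure Machine where
  k : ℕ
  Q : Type
  Γ : Type
  finQ : Finite Q
  finΓ : Finite Γ
  start : Q
  blank : Γ
  zero : Γ
  one : Γ
  sep : Γ
  distinct : [blank, zero, one, sep].Nodup
  δ : Q → (Fin (k + 1) → Γ) → Option (Q × (Fin (k + 1) → Γ × Move))
  out : Fin (k + 1)

namespace Machine

variable (A : Machine)

/-- configurations: state, tape contents (cells indexed by `ℤ`), head positions -/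
structure Cfg where
  state : A.Q
  tape : Fin (A.k + 1) → ℤ → A.Γ
  head : Fin (A.k + 1) → ℤ

/-- the symbol for a bit -/
def bit (b : Bool) : A.Γ := if b then A.one else A.zero

/-- the input `x#y`, both numbers written with `n` binary digits, most significant digit first,
on the cells `0, …, 2n` -/
def input (n x y : ℕ) (i : ℤ) : A.Γ :=
  if 0 ≤ i ∧ i < n then A.bit (x.testBit (n - 1 - i.toNat))
  else if i = n then A.sep
  else if n < i ∧ i ≤ 2 * n then A.bit (y.testBit (2 * n - i.toNat))
  else A.blank

/-- initial configuration: input on the first tape, other tapes blank, all heads on cell `0` -/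
def init (n x y : ℕ) : A.Cfg where
  state := A.start
  tape := fun τ i => if τ = 0 then A.input n x y i else A.blank
  head := fun _ => 0

variable {A}

/-- the transition that applies in a configuration -/
def Cfg.trans (c : A.Cfg) : Option (A.Q × (Fin (A.k + 1) → A.Γ × Move)) :=
  A.δ c.state (fun τ => c.tape τ (c.head τ))

/-- halted configurations -/
def Cfg.Halted (c : A.Cfg) : Prop := c.trans = none

/-- one step (a halted configuration stays as it is) -/
def Cfg.next (c : A.Cfg) : A.Cfg :=
  match c.trans with
  | none => c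
  | some (q, a) =>
    { state := q
      tape := fun τ => Function.update (c.tape τ) (c.head τ) (a τ).1
      head := fun τ => c.head τ + (a τ).2.shift }

variable (A)

/-- the configuration after `t` steps -/
def conf (n x y t : ℕ) : A.Cfg := Cfg.next^[t] (A.init n x y)

/-- `A` multiplies: for every `n ≥ 1` and `n`-digit `x`, `y` it halts with the `2n`-digit binary
representation of `x y` on the cells `0, …, 2n-1` of the output tape. -/
def Multiplies : Prop :=
  ∀ n x y : ℕ, 1 ≤ n → x < 2 ^ n → y < 2 ^ n → ∃ t, (A.conf n x y t).Halted ∧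
    ∀ i : ℕ, i < 2 * n →
      (A.conf n x y t).tape A.out (i : ℤ) = A.bit ((x * y).testBit (2 * n - 1 - i))

/-- the number of steps on the input `x#y` -/
noncomputable def runTime (n x y : ℕ) : ℕ := sInf {t | (A.conf n x y t).Halted}

/-- the worst-case running time `T_A(n)` over all inputs with `n`-digit `x` and `y` -/
noncomputable def T (n : ℕ) : ℕ :=
  (Finset.range (2 ^ n) ×ˢ Finset.range (2 ^ n)).sup fun p => A.runTime n p.1 p.2

end Machine

open Machine

variable {A : Machine}

lemma conf_succ (n x y t : ℕ) : A.conf n x y (t + 1) = (A.conf n x y t).next := by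
  unfold Machine.conf
  rw [Function.iterate_succ_apply']

lemma next_of_halted {c : A.Cfg} (h : c.Halted) : c.next = c := by
  unfold Cfg.next
  rw [show c.trans = none from h]

lemma conf_of_halted {n x y s : ℕ} (h : (A.conf n x y s).Halted) :
    ∀ t, s ≤ t → A.conf n x y t = A.conf n x y s := by
  intro t ht
  induction t, ht using Nat.le_induction with
  | base => rfl
  | succ t _ ih => rw [conf_succ, ih, next_of_halted h]

lemma head_next (c : A.Cfg) (τ : Fin (A.k + 1)) : |c.next.head τ - c.head τ| ≤ 1 := by
  unfold Cfg.next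
  cases h : c.trans with
  | none => simp
  | some qa =>
    obtain ⟨q, a⟩ := qa
    simp only [add_sub_cancel_left]
    cases (a τ).2 <;> simp [Move.shift]

lemma head_diff (n x y : ℕ) (τ : Fin (A.k + 1)) (s d : ℕ) :
    |(A.conf n x y (s + d)).head τ - (A.conf n x y s).head τ| ≤ d := by
  induction d with
  | zero => simp
  | succ d ih =>
    rw [← add_assoc, conf_succ]
    have h1 := head_next (A.conf n x y (s + d)) τ
    have h2 : ((A.conf n x y (s + d)).next.head τ - (A.conf n x y s).head τ)
        = ((A.conf n x y (s + d)).next.head τ - (A.conf n x y (s + d)).head τ)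
          + ((A.conf n x y (s + d)).head τ - (A.conf n x y s).head τ) := by ring
    rw [h2]
    refine le_trans (abs_add_le _ _) ?_
    push_cast
    linarith

lemma head_le (n x y : ℕ) (τ : Fin (A.k + 1)) (t : ℕ) : (A.conf n x y t).head τ ≤ t := by
  have h := head_diff (A := A) n x y τ 0 t
  rw [zero_add] at h
  have h0 : (A.conf n x y 0).head τ = 0 := rfl
  rw [h0, sub_zero] at h
  exact le_trans (le_abs_self _) h

lemma tape_next (c : A.Cfg) (τ : Fin (A.k + 1)) (i : ℤ) (h : c.head τ ≠ i) :
    c.next.tape τ i = c.tape τ i := by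
  unfold Cfg.next
  cases h' : c.trans with
  | none => rfl
  | some qa =>
    obtain ⟨q, a⟩ := qa
    exact Function.update_of_ne (Ne.symm h) _ _

lemma tape_change {n x y : ℕ} {τ : Fin (A.k + 1)} {i : ℤ} {a b : ℕ} (hab : a ≤ b)
    (h : (A.conf n x y b).tape τ i ≠ (A.conf n x y a).tape τ i) :
    ∃ s, a ≤ s ∧ s < b ∧ (A.conf n x y s).head τ = i := by
  induction b, hab using Nat.le_induction with
  | base => exact absurd rfl h
  | succ b hab ih =>
    by_cases hb : (A.conf n x y b).head τ = i
    · exact ⟨b, hab, Nat.lt_succ_self b, hb⟩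
    · rw [conf_succ, tape_next _ _ _ hb] at h
      obtain ⟨s, h1, h2, h3⟩ := ih h
      exact ⟨s, h1, Nat.lt_succ_of_lt h2, h3⟩

/-- configurations of two runs whose inputs differ only in the last two digits of `y` -/
lemma agree {n x y y' : ℕ} (hn : 1 ≤ n) (hyy : y / 4 = y' / 4) :
    ∀ t, t ≤ 2 * n - 1 →
      (A.conf n x y t).state = (A.conf n x y' t).state ∧
      (A.conf n x y t).head = (A.conf n x y' t).head ∧
      ∀ (τ : Fin (A.k + 1)) (i : ℤ), (τ = 0 → i < 2 * n - 1 ∨ 2 * n < i) →
        (A.conf n x y t).tape τ i = (A.conf n x y' t).tape τ i := by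
  intro t
  induction t with
  | zero =>
    intro _
    refine ⟨rfl, rfl, ?_⟩
    intro τ i h
    show (A.init n x y).tape τ i = (A.init n x y').tape τ i
    unfold Machine.init
    simp only
    by_cases hτ : τ = 0
    · simp only [hτ, if_true]
      unfold Machine.input
      by_cases h1 : 0 ≤ i ∧ i < n
      · simp [h1]
      · by_cases h2 : i = n
        · simp [h2]
        · by_cases h3 : (n : ℤ) < i ∧ i ≤ 2 * n
          · simp only [h1, h2, h3, if_false, if_true, and_self]
            have h4 : i < 2 * n - 1 := by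
              rcases h hτ with h | h <;> omega
            have h5 : ∃ m, 2 * n - i.toNat = m + 2 := ⟨2 * n - i.toNat - 2, by omega⟩
            obtain ⟨m, hm⟩ := h5
            rw [hm]
            have h6 : ∀ z : ℕ, z.testBit (m + 2) = (z / 4).testBit m := by
              intro z
              rw [show (4 : ℕ) = 2 ^ 2 by norm_num, ← Nat.shiftRight_eq_div_pow,
                Nat.testBit_shiftRight, add_comm]
            rw [h6, h6, hyy]
          · simp [h1, h2, h3]
    · simp [hτ]
  | succ t ih =>
    intro ht
    obtain ⟨hs, hh, hT⟩ := ih (by omega)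
    have hread : (fun τ => (A.conf n x y t).tape τ ((A.conf n x y t).head τ))
        = (fun τ => (A.conf n x y' t).tape τ ((A.conf n x y' t).head τ)) := by
      ext τ
      rw [← hh]
      apply hT
      intro hτ
      left
      have := head_le (A := A) n x y τ t
      omega
    have htr : (A.conf n x y t).trans = (A.conf n x y' t).trans := by
      unfold Cfg.trans
      rw [hs, hread]
    rw [conf_succ, conf_succ]
    unfold Cfg.next
    rw [← htr]
    cases (A.conf n x y t).trans with
    | none => exact ⟨hs, hh, hT⟩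
    | some qa =>
      obtain ⟨q, a⟩ := qa
      refine ⟨rfl, ?_, ?_⟩
      · simp only [hh]
      · intro τ i hi
        simp only [hh]
        by_cases hi' : i = (A.conf n x y' t).head τ
        · subst hi'
          rw [Function.update_self, Function.update_self]
        · rw [Function.update_of_ne hi', Function.update_of_ne hi']
          exact hT τ i hi

lemma bit_inj : A.bit true ≠ A.bit false := by
  have h := A.distinct
  simp only [List.nodup_cons, List.mem_cons] at h
  unfold Machine.bit
  simp only [if_true, Bool.false_eq_true, if_false]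
  intro h'
  apply h.2.1
  simp [h']

/-- In a run whose contents of the cells `0` and `2n-1` of the output tape at time `2n-1` both
differ from the final ones, at least `4n-1` steps are made. -/
lemma long_run {n x y : ℕ} (hn : 1 ≤ n) (hx : x < 2 ^ n) (hy : y < 2 ^ n) (hA : A.Multiplies)
    (h0 : (A.conf n x y (2 * n - 1)).tape A.out 0 ≠ A.bit ((x * y).testBit (2 * n - 1)))
    (h1 : (A.conf n x y (2 * n - 1)).tape A.out ((2 * n - 1 : ℕ) : ℤ)
      ≠ A.bit ((x * y).testBit 0)) :
    4 * n - 1 ≤ A.runTime n x y := by
  obtain ⟨t, ht, hout⟩ := hA n x y hn hx hy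
  have hne : {t | (A.conf n x y t).Halted}.Nonempty := ⟨t, ht⟩
  have hT : (A.conf n x y (A.runTime n x y)).Halted := Nat.sInf_mem hne
  have hTt : A.runTime n x y ≤ t := Nat.sInf_le ht
  have hconf : A.conf n x y t = A.conf n x y (A.runTime n x y) := conf_of_halted hT t hTt
  rw [hconf] at hout
  have o0 := hout 0 (by omega)
  have o1 := hout (2 * n - 1) (by omega)
  simp only [Nat.cast_zero, Nat.sub_zero, Nat.sub_self] at o0 o1
  have hTn : 2 * n - 1 ≤ A.runTime n x y := by
    by_contra hcon
    have := conf_of_halted hT (2 * n - 1) (by omega)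
    rw [this] at h0
    exact h0 o0
  obtain ⟨s₀, ha, hb, hc⟩ := tape_change (A := A) (n := n) (x := x) (y := y) (τ := A.out) (i := 0)
    hTn (by rw [o0]; exact fun h => h0 h.symm)
  obtain ⟨s₁, ha', hb', hc'⟩ := tape_change (A := A) (n := n) (x := x) (y := y) (τ := A.out)
    (i := ((2 * n - 1 : ℕ) : ℤ)) hTn (by rw [o1]; exact fun h => h1 h.symm)
  rcases le_total s₀ s₁ with hle | hle
  · obtain ⟨d, rfl⟩ := Nat.exists_eq_add_of_le hle
    have := head_diff (A := A) n x y A.out s₀ d
    rw [hc', hc] at this
    have h2 := le_trans (le_abs_self _) this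
    omega
  · obtain ⟨d, rfl⟩ := Nat.exists_eq_add_of_le hle
    have := head_diff (A := A) n x y A.out s₁ d
    rw [hc', hc] at this
    have h2 := le_trans (neg_le_abs _) this
    omega

/-- **Theorem.** Every multitape machine that multiplies satisfies `T_A(n) ≥ 4 n - 1` for all
`n ≥ 4`, whatever its number of tapes, its alphabet and its number of states. -/
theorem result (A : Machine) (hA : A.Multiplies) (n : ℕ) (hn : 4 ≤ n) : 4 * n - 1 ≤ A.T n := by
  set x : ℕ := 2 ^ n - 3 with hxdef
  have hpow : 2 ^ n = 2 * 2 ^ (n - 1) := by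
    rw [← pow_succ']; congr 1; omega
  have h8 : 8 ≤ 2 ^ (n - 1) := by
    calc 8 = 2 ^ 3 := by norm_num
      _ ≤ 2 ^ (n - 1) := Nat.pow_le_pow_right (by norm_num) (by omega)
  have h4 : 4 ∣ 2 ^ (n - 1) := by
    have : (4 : ℕ) = 2 ^ 2 := by norm_num
    rw [this]
    exact pow_dvd_pow 2 (by omega)
  obtain ⟨z, hz⟩ := h4
  have hx : x < 2 ^ n := by omega
  have hxodd : x % 2 = 1 := by omega
  have hpow2 : 2 ^ (2 * n - 1) = 2 ^ (n - 1) * (2 * 2 ^ (n - 1)) := by
    rw [← pow_succ', ← pow_add]; congr 1; omega
  -- the four inputs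
  have hY : ∀ r : ℕ, r < 4 → 2 ^ (n - 1) + r < 2 ^ n := by intro r hr; omega
  have hdiv : ∀ r : ℕ, r < 4 → (2 ^ (n - 1) + r) / 4 = z := by
    intro r hr; rw [hz]; omega
  have hlow : ∀ r : ℕ, r < 4 → (x * (2 ^ (n - 1) + r)).testBit 0 = decide (r % 2 = 1) := by
    intro r hr
    rw [Nat.testBit_zero]
    congr 1
    rw [Nat.mul_mod, hxodd]
    have : (2 ^ (n - 1) + r) % 2 = r % 2 := by omega
    rw [this]
    have hr2 : r % 2 < 2 := Nat.mod_lt _ (by norm_num)
    interval_cases (r % 2) <;> simp
  have hP : x + 3 = 2 * 2 ^ (n - 1) := by omega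
  have htop : ∀ r : ℕ, r < 4 → (x * (2 ^ (n - 1) + r)).testBit (2 * n - 1) = decide (2 ≤ r) := by
    intro r hr
    have hlt : x * (2 ^ (n - 1) + r) < 2 ^ (2 * n - 1 + 1) := by
      have : 2 ^ (2 * n - 1 + 1) = 2 ^ n * 2 ^ n := by
        rw [← pow_add]; congr 1; omega
      rw [this]
      exact Nat.mul_lt_mul'' hx (hY r hr)
    by_cases h2 : 2 ≤ r
    · have hge : 2 ^ (2 * n - 1) ≤ x * (2 ^ (n - 1) + r) := by
        rw [hpow2]
        have h5 : x * (2 ^ (n - 1) + 2) ≤ x * (2 ^ (n - 1) + r) := by gcongr
        refine le_trans ?_ h5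
        nlinarith
      rw [Nat.testBit_eq_decide_div_mod_eq]
      have : x * (2 ^ (n - 1) + r) / 2 ^ (2 * n - 1) = 1 := by
        apply Nat.div_eq_of_lt_le
        · rw [one_mul]; exact hge
        · rw [pow_succ] at hlt; omega
      rw [this]
      simp [h2]
    · have hlt2 : x * (2 ^ (n - 1) + r) < 2 ^ (2 * n - 1) := by
        rw [hpow2]
        have h5 : x * (2 ^ (n - 1) + r) ≤ x * (2 ^ (n - 1) + 1) := by gcongr; omega
        refine lt_of_le_of_lt h5 ?_
        nlinarith
      rw [Nat.testBit_eq_false_of_lt hlt2]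
      simp [h2]
  -- it suffices to find one long run
  have hsuff : ∀ r : ℕ, r < 4 →
      (A.conf n x (2 ^ (n - 1) + r) (2 * n - 1)).tape A.out 0 ≠ A.bit (decide (2 ≤ r)) →
      (A.conf n x (2 ^ (n - 1) + r) (2 * n - 1)).tape A.out ((2 * n - 1 : ℕ) : ℤ)
        ≠ A.bit (decide (r % 2 = 1)) → 4 * n - 1 ≤ A.T n := by
    intro r hr h0 h1
    have h := long_run (A := A) (n := n) (x := x) (y := 2 ^ (n - 1) + r) (by omega) hx (hY r hr)
      hA (by rw [htop r hr]; exact h0) (by rw [hlow r hr]; exact h1)
    refine le_trans h ?_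
    unfold Machine.T
    exact Finset.le_sup (f := fun p : ℕ × ℕ => A.runTime n p.1 p.2)
      (b := (x, 2 ^ (n - 1) + r)) (by
        rw [Finset.mem_product, Finset.mem_range, Finset.mem_range]
        exact ⟨hx, hY r hr⟩)
  have hbit := bit_inj (A := A)
  by_cases hout : A.out = 0
  · -- the output tape is the input tape
    have hcell : ∀ r : ℕ, r < 4 →
        (A.conf n x (2 ^ (n - 1) + r) (2 * n - 1)).tape A.out ((2 * n - 1 : ℕ) : ℤ)
          = A.bit (decide (2 ≤ r)) := by
      intro r hr
      have h1 : (A.conf n x (2 ^ (n - 1) + r) (2 * n - 1)).tape A.out ((2 * n - 1 : ℕ) : ℤ)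
          = (A.conf n x (2 ^ (n - 1) + r) 0).tape A.out ((2 * n - 1 : ℕ) : ℤ) := by
        by_contra hne
        obtain ⟨s, _, hs, hh⟩ := tape_change (A := A) (Nat.zero_le _) hne
        have := head_le (A := A) n x (2 ^ (n - 1) + r) A.out s
        omega
      rw [h1]
      show (A.init n x (2 ^ (n - 1) + r)).tape A.out ((2 * n - 1 : ℕ) : ℤ) = _
      unfold Machine.init Machine.input
      simp only [hout, if_true]
      rw [if_neg (by omega), if_neg (by omega), if_pos (by omega)]
      congr 1
      have e1 : 2 * n - (((2 * n - 1 : ℕ) : ℤ)).toNat = 1 := by omega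
      rw [e1, Nat.testBit_eq_decide_div_mod_eq]
      congr 1
      rw [hz]
      apply propext
      omega
    have hc := fun r (hr : r < 4) => agree (A := A) (n := n) (x := x)
      (y := 2 ^ (n - 1) + r) (y' := 2 ^ (n - 1) + 1) (by omega)
      (by rw [hdiv r hr, hdiv 1 (by norm_num)]) (2 * n - 1) le_rfl
    by_cases h0 : (A.conf n x (2 ^ (n - 1) + 1) (2 * n - 1)).tape A.out 0 = A.bit false
    · refine hsuff 2 (by norm_num) ?_ ?_
      · rw [(hc 2 (by norm_num)).2.2 A.out 0 (fun _ => Or.inl (by omega)), h0]
        simpa using hbit.symm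
      · rw [hcell 2 (by norm_num)]
        simpa using hbit
    · refine hsuff 1 (by norm_num) ?_ ?_
      · simpa using h0
      · rw [hcell 1 (by norm_num)]
        simpa using hbit.symm
  · have hc := fun r (hr : r < 4) => (agree (A := A) (n := n) (x := x)
      (y := 2 ^ (n - 1) + r) (y' := 2 ^ (n - 1) + 0) (by omega)
      (by rw [hdiv r hr, hdiv 0 (by norm_num)]) (2 * n - 1) le_rfl).2.2 A.out
    have hc' : ∀ r : ℕ, r < 4 → ∀ i,
        (A.conf n x (2 ^ (n - 1) + r) (2 * n - 1)).tape A.out i
          = (A.conf n x (2 ^ (n - 1) + 0) (2 * n - 1)).tape A.out i :=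
      fun r hr i => hc r hr i (fun h => absurd h hout)
    by_cases h0 : (A.conf n x (2 ^ (n - 1) + 0) (2 * n - 1)).tape A.out 0 = A.bit false
    · by_cases h1 : (A.conf n x (2 ^ (n - 1) + 0) (2 * n - 1)).tape A.out
          ((2 * n - 1 : ℕ) : ℤ) = A.bit false
      · refine hsuff 3 (by norm_num) ?_ ?_
        · rw [hc' 3 (by norm_num), h0]; simpa using hbit.symm
        · rw [hc' 3 (by norm_num), h1]; simpa using hbit.symm
      · refine hsuff 2 (by norm_num) ?_ ?_
        · rw [hc' 2 (by norm_num), h0]; simpa using hbit.symm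
        · rw [hc' 2 (by norm_num)]; simpa using h1
    · by_cases h1 : (A.conf n x (2 ^ (n - 1) + 0) (2 * n - 1)).tape A.out
          ((2 * n - 1 : ℕ) : ℤ) = A.bit false
      · refine hsuff 1 (by norm_num) ?_ ?_
        · rw [hc' 1 (by norm_num)]; simpa using h0
        · rw [hc' 1 (by norm_num), h1]; simpa using hbit.symm
      · refine hsuff 0 (by norm_num) ?_ ?_
        · simpa using h0
        · simpa using h1

end Vale.Agent.Results.P338.FourN
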